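import Vale.Agent.P150.Beta1.Radial.Window
import Vale.Agent.P150.Beta1.Local.Ising
import Vale.Agent.P150.Beta1.Words.Event

/-!
# The annealed free energy bound and the decomposition of entropy
-/

namespace Vale.Agent.P150.Beta1.Trap

open MeasureTheory ProbabilityTheory Finset Filter Real
open scoped ENNReal Topology

/-- The logarithm of the partition function at zero field. -/
noncomputable def logZ {n : ℕ} (J : Fin n → Fin n → ℝ) : ℝ :=
  log (∑ x : Fin n → Bool, exp (energy J 0 x))

variable {n : ℕ}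

lemma energy_zero_eq (J : Fin n → Fin n → ℝ) (x : Fin n → Bool) :
    energy J 0 x = (∑ i, spins x i * act J (spins x) i) / 2 := by
  simp only [energy, spins, act, Pi.zero_apply, zero_mul, sum_const_zero, add_zero, mul_sum]
  congr 1
  exact sum_congr rfl fun i _ => sum_congr rfl fun j _ => by ring

lemma spins_sq (x : Fin n → Bool) (i : Fin n) : spins x i ^ 2 = 1 := by
  simp only [spins, spin]
  split_ifs <;> norm_num

lemma radCoef_spins_sq (β : ℝ) (x : Fin n → Bool) :
    ∑ p, radCoef β (spins x) p ^ 2 ≤ 2 * β ^ 2 * n := by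
  rcases Nat.eq_zero_or_pos n with rfl | hn
  · simp
  have hn' : (0 : ℝ) < n := by exact_mod_cast hn
  have e : ∀ i j, radCoef β (spins x) (i, j) ^ 2 = if i < j then 4 * β ^ 2 / n else 0 := by
    intro i j
    unfold radCoef
    dsimp only
    split_ifs
    · rw [mul_pow, mul_pow, spins_sq, spins_sq, div_pow, sq_sqrt hn'.le]
      ring
    · simp
  rw [Fintype.sum_prod_type]
  simp only [e]
  have h2 : 2 * ∑ i : Fin n, ∑ j : Fin n, (if i < j then 4 * β ^ 2 / (n : ℝ) else 0)
      ≤ ∑ _i : Fin n, ∑ _j : Fin n, 4 * β ^ 2 / (n : ℝ) := by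
    rw [two_mul]
    nth_rewrite 2 [sum_comm]
    rw [← sum_add_distrib]
    refine sum_le_sum fun i _ => ?_
    rw [← sum_add_distrib]
    refine sum_le_sum fun j _ => ?_
    rcases lt_trichotomy i j with h | h | h
    · simp [h, h.not_gt]
    · subst h; simp; positivity
    · simp [h, h.not_gt]
  simp only [sum_const, card_univ, Fintype.card_fin, nsmul_eq_mul] at h2
  rw [show (n : ℝ) * (n * (4 * β ^ 2 / n)) = 4 * β ^ 2 * n by field_simp] at h2
  linarith

lemma integral_exp_energy_le (β : ℝ) (x : Fin n → Bool) :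
    ∫ g, exp (energy (skCoupling β g) 0 x) ∂gauss (Fin n × Fin n) ≤ exp (β ^ 2 * n / 4) := by
  have e : ∀ g, energy (skCoupling β g) 0 x
      = Local.dotk g (fun p => radCoef β (spins x) p / 2) := fun g => by
    rw [energy_zero_eq, quad_skCoupling, lin, Local.dotk, sum_div]
    exact sum_congr rfl fun p _ => by ring
  simp only [e, Local.integral_exp_dot]
  refine exp_le_exp.2 ?_
  simp only [Local.dotk]
  have h := radCoef_spins_sq β x
  have e2 : ∑ p, radCoef β (spins x) p / 2 * (radCoef β (spins x) p / 2)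
      = (∑ p, radCoef β (spins x) p ^ 2) / 4 := by
    rw [sum_div]
    exact sum_congr rfl fun p _ => by ring
  rw [e2]
  linarith

/-- The annealed bound on the free energy. -/
theorem logZ_tail (β δ : ℝ) (n : ℕ) :
    gauss (Fin n × Fin n) {g | n * (log 2 + β ^ 2 / 4 + δ) ≤ logZ (skCoupling β g)}
      ≤ ENNReal.ofReal (exp (-(δ * n))) := by
  set Z := fun g : Fin n × Fin n → ℝ => ∑ x : Fin n → Bool, exp (energy (skCoupling β g) 0 x)
  set a := exp (n * (log 2 + β ^ 2 / 4 + δ)) with ha
  have hi : ∀ x : Fin n → Bool,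
      Integrable (fun g => exp (energy (skCoupling β g) 0 x)) (gauss (Fin n × Fin n)) := fun x => by
    have e : (fun g => exp (energy (skCoupling β g) 0 x))
        = fun g => exp (lin (fun p => radCoef β (spins x) p / 2) g) := by
      funext g
      rw [energy_zero_eq, quad_skCoupling, lin, lin, sum_div]
      exact congrArg exp (sum_congr rfl fun p _ => by ring)
    rw [e]
    simp only [lin, exp_sum]
    exact Integrable.fintype_prod fun p => integrable_exp_mul_gaussianReal _
  have h1 := mul_meas_ge_le_integral_of_nonneg (μ := gauss (Fin n × Fin n)) (f := Z)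
    (ae_of_all _ fun g => sum_nonneg fun x _ => (exp_pos _).le) (integrable_finsetSum _ fun x _ => hi x) a
  have h2 : ∫ g, Z g ∂gauss (Fin n × Fin n) ≤ 2 ^ n * exp (β ^ 2 * n / 4) := by
    rw [integral_finsetSum _ fun x _ => hi x]
    refine (sum_le_sum fun x _ => integral_exp_energy_le β x).trans (le_of_eq ?_)
    simp
  have h3 : (gauss (Fin n × Fin n)).real {g | a ≤ Z g} ≤ exp (-(δ * n)) := by
    have e : (2 : ℝ) ^ n * exp (β ^ 2 * n / 4) = a * exp (-(δ * n)) := by
      rw [ha, ← exp_log (show (0:ℝ) < 2 ^ n by positivity), log_pow, ← exp_add, ← exp_add]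
      ring_nf
    exact le_of_mul_le_mul_left ((h1.trans h2).trans_eq e) (exp_pos _)
  have hsub : {g : Fin n × Fin n → ℝ | n * (log 2 + β ^ 2 / 4 + δ) ≤ logZ (skCoupling β g)}
      ⊆ {g | a ≤ Z g} := fun g hg => by
    show a ≤ Z g
    rw [ha, ← exp_log (show 0 < Z g from partition_pos)]
    exact exp_le_exp.2 hg
  exact (measure_mono hsub).trans
    ((ENNReal.le_ofReal_iff_toReal_le (measure_ne_top _ _) (exp_pos _).le).2 h3)

variable {J : Fin n → Fin n → ℝ}

/-- Entropy, Shannon entropy, energy and free energy. -/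
theorem ent_decomp {F : (Fin n → Bool) → ℝ} (hF : ∀ x, 0 < F x) (hm : mean (gibbs J 0) F = 1) :
    ent (gibbs J 0) F = -Local.hShannon J F 0
      - tmean (gibbs J 0) F (fun x => ∑ i, spins x i * act J (spins x) i) / 2 + logZ J := by
  have h1 : mean (Local.p0 J) F = 1 := hm
  rw [ent_eq (IsWeight.gibbs J 0) hF, hm, Local.hShannon_zero, h1, tmean, hm]
  simp only [log_one, mul_zero, sub_zero, zero_sub, div_one, neg_neg, Local.p0]
  have e : ∀ x, gibbs J 0 x * F x * log (gibbs J 0 x * F x)
      = gibbs J 0 x * (F x * log (F x))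
        + (gibbs J 0 x * (F x * (∑ i, spins x i * act J (spins x) i))) / 2
        - gibbs J 0 x * F x * logZ J := fun x => by
    rw [log_mul (gibbs_pos x).ne' (hF x).ne']
    have : log (gibbs J 0 x) = energy J 0 x - logZ J := by
      rw [gibbs, log_div (exp_pos _).ne' partition_pos.ne', log_exp, logZ]
    rw [this, energy_zero_eq]
    ring
  simp only [e, sum_add_distrib, sum_sub_distrib, ← sum_mul, ← sum_div]
  simp only [mean] at hm ⊢
  rw [hm]
  ring

lemma ent_smul {ρ F : (Fin n → Bool) → ℝ} (hρ : IsWeight ρ) (hF : ∀ x, 0 < F x) {c : ℝ}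
    (hc : 0 < c) : ent ρ (fun x => c * F x) = c * ent ρ F := by
  have hm : mean ρ (fun x => c * F x) = c * mean ρ F := by
    simp only [mean, mul_sum]
    exact sum_congr rfl fun x _ => by ring
  simp only [ent]
  rw [hm]
  simp only [mean, mul_sum, psi]
  refine sum_congr rfl fun x _ => ?_
  have := hF x
  have := mean_pos hρ hF
  simp only [mean] at this
  rw [← mul_sum, mul_div_mul_left _ _ hc.ne']
  ring

lemma dirichlet_sqrt_smul {ρ F : (Fin n → Bool) → ℝ} {c : ℝ} (hc : 0 ≤ c) :
    dirichlet ρ (fun x => √(c * F x)) = c * dirichlet ρ (fun x => √(F x)) := by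
  have e : (fun x => √(c * F x)) = fun x => √c * √(F x) := funext fun x => sqrt_mul hc _
  have hg : ∀ x, generator ρ (fun x => √c * √(F x)) x = √c * generator ρ (fun x => √(F x)) x := by
    intro x
    simp only [generator, resample, mul_sum]
    exact sum_congr rfl fun i _ => by ring
  rw [e]
  simp only [dirichlet, hg, mean, mul_neg, mul_sum]
  congr 1
  refine sum_congr rfl fun x _ => ?_
  linear_combination (ρ x * (√(F x) * generator ρ (fun x => √(F x)) x)) * sq_sqrt hc

lemma abs_quad_spins_le {Λ : ℝ} (hJ : Words.OpSq J Λ) (x : Fin n → Bool) :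
    |∑ i, spins x i * act J (spins x) i| ≤ (1 + Λ) / 2 * n := by
  have hs : ∑ i, spins x i ^ 2 = (n : ℝ) := by simp [spins_sq]
  have h1 := hJ (spins x)
  rw [hs] at h1
  refine (abs_sum_le_sum_abs _ _).trans ?_
  calc ∑ i, |spins x i * act J (spins x) i|
      ≤ ∑ i, (spins x i ^ 2 + act J (spins x) i ^ 2) / 2 := sum_le_sum fun i _ => by
        rw [abs_mul]
        nlinarith [sq_nonneg (|spins x i| - |act J (spins x) i|), sq_abs (spins x i),
          sq_abs (act J (spins x) i)]
    _ ≤ _ := by rw [← sum_div, sum_add_distrib, hs]; linarith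

end Vale.Agent.P150.Beta1.Trap
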