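import Vale.Agent.P150.Beta1.Trap.Entropy
import Vale.Agent.P150.Beta1.Trap.FreeEnergy
import Vale.Agent.P150.Beta1.Words.Main
import Vale.Agent.P150.Beta1.Profile.ZeroField

/-!
# Pass one: no traps

A tilt of Dirichlet energy `o(n)` has Shannon entropy at least `n (log 2 - β²/4 - o(1))` by the
profile and energy `n β²/2 + o(n)` by the zero field identities; the annealed bound on the free
energy leaves `o(n)` for its entropy.
-/

namespace Vale.Agent.P150.Beta1.Trap

open MeasureTheory ProbabilityTheory Finset Filter Real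
open Profile (RadialAt ProfileStatement profS slopeSq zeroField_energy)
open Words (OpSq Ev radSq)
open scoped ENNReal Topology

variable {β : ℝ}

lemma tendsto_ofReal_exp_neg {c : ℝ} (hc : 0 < c) :
    Tendsto (fun n : ℕ => ENNReal.ofReal (exp (-(c * n)))) atTop (𝓝 0) := by
  rw [← ENNReal.ofReal_zero]
  refine ENNReal.tendsto_ofReal (Real.tendsto_exp_atBot.comp ?_)
  exact tendsto_neg_atTop_atBot.comp (tendsto_natCast_atTop_atTop.const_mul_atTop hc)

lemma measurableSet_radial (ρ κ : ℝ) (n : ℕ) :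
    MeasurableSet {g : Fin n × Fin n → ℝ | RadialAt β ρ κ (skCoupling β g)} := by
  refine IsClosed.measurableSet ?_
  simp only [RadialAt, Set.ofPred_forall]
  refine isClosed_iInter fun z => isClosed_iInter fun _ => isClosed_le ?_ continuous_const
  simp only [act]
  have := fun i j => Words.skCoupling_continuous (n := n) β i j
  fun_prop

lemma tendsto_compl_zero {A : ∀ n, Set (Fin n × Fin n → ℝ)} (hA : ∀ n, MeasurableSet (A n))
    (h : Tendsto (fun n : ℕ => Measure.pi (fun _ : Fin n × Fin n => gaussianReal 0 1) (A n))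
      atTop (𝓝 1)) :
    Tendsto (fun n : ℕ => Measure.pi (fun _ : Fin n × Fin n => gaussianReal 0 1) (A n)ᶜ)
      atTop (𝓝 0) := by
  have h1 := ENNReal.Tendsto.sub (tendsto_const_nhds (x := (1 : ℝ≥0∞))) h
    (Or.inl ENNReal.one_ne_top)
  rw [tsub_self] at h1
  exact h1.congr fun n => (prob_compl_eq_one_sub (hA n)).symm

/-- The entropy bound for one coupling, off the exceptional events. -/
theorem ent_le_of_events {n : ℕ} (hn : 0 < n) {J : Fin n → Fin n → ℝ} {T δ ε C' Λ R : ℝ}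
    (hT : 0 ≤ T) {N : ℕ} (hN : 0 < N) (hC' : 0 ≤ C') (hε : 0 ≤ ε) (hδ : 0 ≤ δ) (hε' : 0 < ε)
    (hsum : log 2 - β ^ 2 / 4 - δ / 8
      ≤ ∑ i ∈ range N, T / N * ((1 - psi (profS β (T / N) i)) / 2))
    (hnbig : C' ≤ δ / 8 * √n) (hεsmall : C' * √ε ≤ δ / 8) (hTδ : T * R ≤ δ / 4)
    (hop : OpSq J Λ) (hΛ : 0 ≤ Λ)
    (hZ : logZ J ≤ n * (log 2 + β ^ 2 / 4 + δ / 8))
    (henergy : ∀ F : (Fin n → Bool) → ℝ, (∀ x, 0 < F x) →
      |tmean (gibbs J 0) F (fun x => ∑ i, spins x i * act J (spins x) i) - n * β ^ 2|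
        ≤ n * (δ / 8) + C' * √n * √(tdir (gibbs J 0) F + 1))
    (hprof : ∀ F : (Fin n → Bool) → ℝ, (∀ x, 0 < F x) → mean (Local.p0 J) F = 1 →
      dirichlet (Local.p0 J) (fun x => √(F x)) ≤ ε * n →
        ∀ i < N, ∀ v, (i : ℝ) * (T / N) ≤ v → v ≤ ((i : ℝ) + 1) * (T / N) →
          Local.magSq J F v ≤ n * (psi (profS β (T / N) i) + R))
    (F : (Fin n → Bool) → ℝ) (hF : ∀ x, 0 < F x) :
    ent (gibbs J 0) F ≤ ((1 + Λ) / 4 + 1 + β ^ 2 / 4 + δ / 8) / ε
        * dirichlet (gibbs J 0) (fun x => √(F x))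
      + δ * n * mean (gibbs J 0) F := by
  have hn' : (0 : ℝ) < n := by exact_mod_cast hn
  have hρ := IsWeight.gibbs J (0 : Fin n → ℝ)
  set c := mean (gibbs J 0) F
  have hc : 0 < c := mean_pos hρ hF
  set G := fun x => c⁻¹ * F x with hG
  have hGpos : ∀ x, 0 < G x := fun x => mul_pos (inv_pos.2 hc) (hF x)
  have hGm : mean (gibbs J 0) G = 1 := by
    have : mean (gibbs J 0) G = c⁻¹ * c := by
      simp only [hG, c, mean, mul_sum]
      exact sum_congr rfl fun x _ => by ring
    rw [this, inv_mul_cancel₀ hc.ne']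
  have hentG : ent (gibbs J 0) G = c⁻¹ * ent (gibbs J 0) F := ent_smul hρ hF (inv_pos.2 hc)
  have hdirG : dirichlet (gibbs J 0) (fun x => √(G x))
      = c⁻¹ * dirichlet (gibbs J 0) (fun x => √(F x)) := dirichlet_sqrt_smul (inv_pos.2 hc).le
  set D := dirichlet (gibbs J 0) (fun x => √(G x))
  have hD0 : 0 ≤ D := Local.dirichlet_nonneg' hρ
  set K := (1 + Λ) / 4 + 1 + β ^ 2 / 4 + δ / 8
  have hK : 0 ≤ K := by positivity
  have hkey : ent (gibbs J 0) G ≤ K / ε * D + δ * n := by
    have hdec := ent_decomp hGpos hGm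
    have hH0 := Local.hShannon_nonneg J (u := 0) le_rfl hGpos
    by_cases hD : D ≤ ε * n
    · have hm : mean (Local.p0 J) G = 1 := hGm
      have hlow := hShannon_lower J hGpos hm hT hN (fun i => n * (psi (profS β (T / N) i) + R))
        (hprof G hGpos hm hD)
      have e : ∑ i ∈ range N, T / N * (((n : ℝ) - n * (psi (profS β (T / N) i) + R)) / 2)
          = n * (∑ i ∈ range N, T / N * ((1 - psi (profS β (T / N) i)) / 2))
            - n * (T * R / 2) := by
        have hN' : (N : ℝ) ≠ 0 := by exact_mod_cast hN.ne'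
        have e1 : ∀ i, T / N * (((n : ℝ) - n * (psi (profS β (T / N) i) + R)) / 2)
            = n * (T / N * ((1 - psi (profS β (T / N) i)) / 2)) - n * (T / N * R / 2) := fun i => by
          ring
        simp only [e1, sum_sub_distrib, ← mul_sum, sum_const, card_range, nsmul_eq_mul]
        field_simp
      rw [e] at hlow
      have h1 := mul_le_mul_of_nonneg_left hsum hn'.le
      have h2 := mul_le_mul_of_nonneg_left hTδ hn'.le
      have hE := (abs_le.1 (henergy G hGpos)).1
      have htd : tdir (gibbs J 0) G = D := by rw [tdir, hGm, div_one]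
      rw [htd] at hE
      have h3 : C' * √n * √(D + 1) ≤ n * (δ / 4) := by
        have h4 : √(D + 1) ≤ √ε * √n + 1 := by
          rw [sqrt_le_left (by positivity)]
          nlinarith [sq_sqrt hε, sq_sqrt hn'.le, mul_nonneg (sqrt_nonneg ε) (sqrt_nonneg (n : ℝ))]
        have h5 := mul_le_mul_of_nonneg_left h4 (mul_nonneg hC' (sqrt_nonneg (n : ℝ)))
        have h6 := mul_le_mul_of_nonneg_right hεsmall hn'.le
        have h7 := mul_le_mul_of_nonneg_right hnbig (sqrt_nonneg (n : ℝ))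
        have h8 : √(n : ℝ) * √n = n := mul_self_sqrt hn'.le
        have h9 : C' * √n * (√ε * √n + 1) = C' * √ε * n + C' * √n := by
          linear_combination C' * √ε * h8
        have h10 : δ / 8 * √n * √n = δ / 8 * n := by linear_combination δ / 8 * h8
        linarith
      have h11 : 0 ≤ K / ε * D := by positivity
      have h12 : 0 ≤ δ * n := by positivity
      linarith
    · have hE := abs_tmean_quad hop hGpos
      have h1 : K * n ≤ K / ε * D := by
        rw [div_mul_eq_mul_div, le_div_iff₀ hε', mul_assoc, mul_comm (n : ℝ) ε]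
        exact mul_le_mul_of_nonneg_left (le_of_not_ge hD) hK
      have h2 : log 2 ≤ 1 := (log_le_sub_one_of_pos two_pos).trans (by norm_num)
      have h3 := mul_le_mul_of_nonneg_left h2 hn'.le
      have hK' : K * n = (1 + Λ) / 4 * n + n + β ^ 2 / 4 * n + δ / 8 * n := by simp only [K]; ring
      have h4 : 0 ≤ δ * n := by positivity
      linarith [(abs_le.1 hE).1]
  rw [hentG, hdirG] at hkey
  have h := mul_le_mul_of_nonneg_left hkey hc.le
  rw [← mul_assoc, mul_inv_cancel₀ hc.ne', one_mul] at h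
  refine h.trans (le_of_eq ?_)
  field_simp
where
  abs_tmean_quad {n : ℕ} {J : Fin n → Fin n → ℝ} {Λ : ℝ} (hop : OpSq J Λ)
      {G : (Fin n → Bool) → ℝ} (hG : ∀ x, 0 < G x) :
      |tmean (gibbs J 0) G (fun x => ∑ i, spins x i * act J (spins x) i)| ≤ (1 + Λ) / 2 * n :=
    (Profile.abs_tmean_le hG fun x => abs_quad_spins_le hop x).trans_eq (Profile.tmean_const hG _)

/-- Pass one, from the profile, the tests and the radial inequality. -/
theorem trapStatement_of (hβ : 0 ≤ β) (hβ1 : β < 1) (hP : ProfileStatement β)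
    (hT : TestsStatement β) (hE : EnergyStepStatement β) (hR : RadialStatement β) :
    TrapStatement β := by
  intro δ₀ hδ₀
  set δ := min δ₀ 1
  have hδ : 0 < δ := lt_min hδ₀ one_pos
  set Λ := radSq β
  have hΛ : 0 ≤ Λ := zero_le_one.trans (Words.one_le_radSq β)
  set A := 1 + 2 * β ^ 2 + 2 * β ^ 4 + 2 * Λ with hA
  have hA0 : 0 < A := by positivity
  set ρ := δ / (8 * A) with hρdef
  have hρ : 0 < ρ := by positivity
  have hAρ : A * ρ = δ / 8 := by rw [hρdef]; field_simp
  obtain ⟨κ, hκ, hrad⟩ := hR ρ hρ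
  obtain ⟨m, hm⟩ := zeroField_energy (Λ := Λ) hT hE hρ hκ hΛ
  obtain ⟨C, hC⟩ := wordsStatement β m
  obtain ⟨C', hC'⟩ := hm C
  obtain ⟨T, hT0, hT1⟩ := profile_sum hβ hβ1 (show 0 < δ / 8 by positivity)
  set R := δ / (4 * T) with hRdef
  have hR0 : 0 < R := by positivity
  have hTR : T * R ≤ δ / 4 := le_of_eq (by rw [hRdef]; field_simp)
  obtain ⟨N₀, hN₀⟩ := hP T hT0 R hR0
  obtain ⟨N₁, hN₁⟩ := hT1 T le_rfl
  set N := max (max N₀ N₁) 1
  have hNpos : 0 < N := lt_of_lt_of_le one_pos (le_max_right _ _)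
  obtain ⟨ε₀, hε₀, hprof⟩ := hN₀ N ((le_max_left _ _).trans (le_max_left _ _)) hNpos
  have hsum := hN₁ N ((le_max_right _ _).trans (le_max_left _ _)) hNpos
  set C'' := max C' 1
  have hC''0 : 0 < C'' := lt_of_lt_of_le one_pos (le_max_right _ _)
  set ε := min ε₀ ((δ / (8 * C'')) ^ 2)
  have hε : 0 < ε := lt_min hε₀ (by positivity)
  have hεsmall : C'' * √ε ≤ δ / 8 := by
    have h1 : √ε ≤ δ / (8 * C'') := (sqrt_le_left (by positivity)).2 (min_le_right _ _)
    refine (mul_le_mul_of_nonneg_left h1 hC''0.le).trans (le_of_eq ?_)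
    field_simp
  refine ⟨((1 + Λ) / 4 + 1 + β ^ 2 / 4 + δ / 8) / ε, ?_⟩
  set P := fun n : ℕ => Measure.pi fun _ : Fin n × Fin n => gaussianReal 0 1
  set b₁ := fun n : ℕ => P n {g | ¬GoodWords β m C (skCoupling β g)}
  set b₂ := fun n : ℕ => P n (Ev β n)ᶜ
  set b₃ := fun n : ℕ => P n {g | RadialAt β ρ κ (skCoupling β g)}ᶜ
  set b₄ := fun n : ℕ => P n {g | (n : ℝ) * (log 2 + β ^ 2 / 4 + δ / 8) ≤ logZ (skCoupling β g)}
  have t₁ : Tendsto b₁ atTop (𝓝 0) := tendsto_of_tendsto_of_tendsto_of_le_of_le' tendsto_const_nhds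
    (tendsto_ofReal_exp_neg one_pos) (Eventually.of_forall fun n => zero_le)
    (hC.mono fun n h => by simpa using h)
  have t₂ : Tendsto b₂ atTop (𝓝 0) := tendsto_of_tendsto_of_tendsto_of_le_of_le' tendsto_const_nhds
    (tendsto_ofReal_exp_neg two_pos) (Eventually.of_forall fun n => zero_le)
    ((eventually_gt_atTop 0).mono fun n hn =>
      (ENNReal.le_ofReal_iff_toReal_le (measure_ne_top _ _) (exp_pos _).le).2
        (Words.gauss_ev_compl β hn))
  have t₃ : Tendsto b₃ atTop (𝓝 0) := tendsto_compl_zero (measurableSet_radial ρ κ) hrad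
  have t₄ : Tendsto b₄ atTop (𝓝 0) := tendsto_of_tendsto_of_tendsto_of_le_of_le tendsto_const_nhds
    (tendsto_ofReal_exp_neg (show 0 < δ / 8 by positivity)) (fun n => zero_le)
    fun n => logZ_tail β (δ / 8) n
  have hlow := ENNReal.Tendsto.sub hprof (((t₁.add t₂).add t₃).add t₄)
    (Or.inl ENNReal.one_ne_top)
  simp only [add_zero, tsub_zero] at hlow
  refine tendsto_of_tendsto_of_tendsto_of_le_of_le' hlow tendsto_const_nhds ?_
    (Eventually.of_forall fun n => prob_le_one)
  have hbig : ∀ᶠ n : ℕ in atTop, C'' ≤ δ / 8 * √(n : ℝ) :=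
    ((Real.tendsto_sqrt_atTop.comp tendsto_natCast_atTop_atTop).const_mul_atTop
      (show 0 < δ / 8 by positivity)).eventually_ge_atTop C''
  filter_upwards [eventually_gt_atTop 0, hbig] with n hn hnbig
  rw [tsub_le_iff_right]
  refine le_trans (measure_mono ?_) ((measure_union_le _ _).trans (add_le_add le_rfl
    ((measure_union_le _ _).trans (add_le_add ((measure_union_le _ _).trans
      (add_le_add (measure_union_le _ _) le_rfl)) le_rfl))))
  intro g hg
  rw [Set.mem_union]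
  by_cases hbad : g ∈ {g | ¬GoodWords β m C (skCoupling β g)} ∪ (Ev β n)ᶜ
      ∪ {g | RadialAt β ρ κ (skCoupling β g)}ᶜ
      ∪ {g | (n : ℝ) * (log 2 + β ^ 2 / 4 + δ / 8) ≤ logZ (skCoupling β g)}
  · exact Or.inr hbad
  left
  simp only [Set.mem_union, Set.mem_compl_iff, not_or, not_not] at hbad
  obtain ⟨⟨⟨hW, hO⟩, hRad⟩, hZ⟩ := hbad
  have hW' : GoodWords β m C (skCoupling β g) := by simpa using hW
  intro F hF
  refine (ent_le_of_events (ε := ε) (C' := C'') (R := R) (β := β) hn hT0.le hNpos hC''0.le hε.le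
    hδ.le hε hsum hnbig hεsmall hTR hO hΛ (le_of_not_ge hZ) (fun G hG => ?_)
    (fun G hG hGm hGD => hg G hG hGm (hGD.trans ?_)) F hF).trans ?_
  · refine (hC' n _ G hn hW' hO hRad hG).trans ?_
    rw [show (1 + 2 * β ^ 2 + 2 * β ^ 4 + 2 * Λ) * ρ = δ / 8 from hAρ]
    refine add_le_add le_rfl ?_
    gcongr
    exact le_max_left _ _
  · exact mul_le_mul_of_nonneg_right (min_le_left _ _) (Nat.cast_nonneg n)
  · refine add_le_add le_rfl ?_
    have := (mean_pos (IsWeight.gibbs (skCoupling β g) (0 : Fin n → ℝ)) hF).le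
    gcongr
    exact min_le_left _ _

end Vale.Agent.P150.Beta1.Trap
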