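import Mathlib
import Vale.Agent.P150.Semigroup

/-!
# Relative entropy along the dynamics: definition
-/

namespace Vale.Agent.P150.Beta1.Trap

open Finset Real

variable {ι : Type*} [Fintype ι] [DecidableEq ι]

/-- Relative entropy to the equilibrium `ρ` at time `t` of the dynamics started at `x`. -/
noncomputable def klStart (ρ : (ι → Bool) → ℝ) (t : ℝ) (x : ι → Bool) : ℝ :=
  ∑ y, transProb ρ t x y * log (transProb ρ t x y / ρ y)

end Vale.Agent.P150.Beta1.Trap
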