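import Vale.Agent.P150.Beta1.Assembly.Final
import Vale.Agent.P150.Beta1.Local.Ising
import Vale.Agent.P150.Beta1.Trap.KL

/-!
# Pass one, dynamical form: relative entropy falls below `δ n` in time of order one
-/

namespace Vale.Agent.P150.Beta1.Trap

open MeasureTheory ProbabilityTheory Finset Filter Real Function
open scoped ENNReal Topology

variable {ι : Type*} [Fintype ι] [DecidableEq ι]

/-- The Dirichlet form of the square root is at most the single-site entropies. -/
lemma dirichlet_sqrt_le {ρ F : (ι → Bool) → ℝ} (hρ : IsWeight ρ) (hF : ∀ x, 0 < F x) :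
    dirichlet ρ (fun x => √(F x)) ≤ ∑ i, siteEnt ρ i F := by
  refine (Local.dirichlet_le_sub hρ (fun i x => √(resample ρ i F x))
    fun i x b => by simp only [resample_update_self]).trans ?_
  refine sum_le_sum fun i _ => sum_le_sum fun x _ => mul_le_mul_of_nonneg_left ?_ (hρ.1 x).le
  exact sqrt_sub_sq_le_psi (hF x) (resample_pos hρ hF i x)

variable {J : ι → ι → ℝ} {h : ι → ℝ}

/-- Entropy decays exponentially to the defect. -/
theorem ent_semigroup_le_add (hsymm : ∀ i j, J i j = J j i) (hdiag : ∀ i, J i i = 0) {K E : ℝ}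
    (hK : 0 < K) (hE0 : 0 ≤ E)
    (hE : ∀ F : (ι → Bool) → ℝ, (∀ x, 0 < F x) →
      ent (gibbs J h) F ≤ K * ∑ i, siteEnt (gibbs J h) i F + E * mean (gibbs J h) F)
    {f : (ι → Bool) → ℝ} (hf : ∀ x, 0 < f x) {t : ℝ} (ht : 0 ≤ t) :
    ent (gibbs J h) (semigroup (gibbs J h) t f)
      ≤ E * mean (gibbs J h) f + exp (-t / K) * ent (gibbs J h) f := by
  set μ := gibbs J h with hμ
  have hρ : IsWeight μ := IsWeight.gibbs J h
  set m := mean μ f
  have hm : 0 < m := mean_pos hρ hf
  set F : ℝ → ℝ := fun u => exp (u / K) *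
    (∑ x, μ x * (semigroup μ u f x * log (semigroup μ u f x)) - m * log m - E * m) with hF
  have hpos : ∀ u, 0 ≤ u → ∀ x, 0 < semigroup μ u f x := fun u hu => semigroup_pos hρ hu hf
  have hent : ∀ u, 0 ≤ u → ent μ (semigroup μ u f)
      = ∑ x, μ x * (semigroup μ u f x * log (semigroup μ u f x)) - m * log m := fun u hu => by
    rw [ent_eq hρ (hpos u hu), mean_semigroup hsymm hdiag u f]
  have hd : ∀ u, 0 ≤ u → ∃ D, HasDerivAt F D u ∧ D ≤ 0 := by
    intro u hu
    set g := semigroup μ u f with hg
    have h1 : HasDerivAt (fun v => ∑ x, μ x * (semigroup μ v f x * log (semigroup μ v f x))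
        - m * log m - E * m) (∑ x, μ x * ((log (g x) + 1) * generator μ g x)) u := by
      refine ((HasDerivAt.fun_sum fun x _ => HasDerivAt.const_mul (μ x) ?_).sub_const _).sub_const _
      have := (semigroup_deriv_apply (ρ := μ) f u x).mul
        ((semigroup_deriv_apply (ρ := μ) f u x).log (hpos u hu x).ne')
      refine this.congr_deriv ?_
      rw [← hg]
      have hx : g x ≠ 0 := (hpos u hu x).ne'
      field_simp
    refine ⟨_, (((hasDerivAt_id u).div_const K).exp).mul h1, ?_⟩
    have h2 := sum_siteEnt_le (h := h) hsymm hdiag (hpos u hu)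
    have h3 := hE _ (hpos u hu)
    have h4 := mean_generator (h := h) hsymm hdiag g
    have h7 : mean μ g = m := mean_semigroup hsymm hdiag u f
    have h5 : ∑ x, μ x * ((log (g x) + 1) * generator μ g x)
        = mean μ (fun x => log (g x) * generator μ g x) + mean μ (generator μ g) := by
      simp only [mean, ← sum_add_distrib]
      exact sum_congr rfl fun x _ => by ring
    rw [← hg] at h2 h3
    rw [h7] at h3
    rw [h5, h4, add_zero, ← hent u hu, ← hg]
    simp only [id_eq]
    have h6 : exp (u / K) * (1 / K) * (ent μ g - E * m)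
        ≤ exp (u / K) * (1 / K) * (K * -mean μ fun x => log (g x) * generator μ g x) :=
      mul_le_mul_of_nonneg_left (by linarith [mul_le_mul_of_nonneg_left h2 hK.le]) (by positivity)
    have e : exp (u / K) * (1 / K) * (K * -mean μ fun x => log (g x) * generator μ g x)
        = -(exp (u / K) * mean μ fun x => log (g x) * generator μ g x) := by field_simp
    linarith
  have hanti : AntitoneOn F (Set.Ici 0) := by
    refine antitoneOn_of_deriv_nonpos (convex_Ici 0) (fun u hu => ?_) (fun u hu => ?_) fun u hu => ?_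
    · obtain ⟨D, hD, -⟩ := hd u hu
      exact hD.continuousAt.continuousWithinAt
    · rw [interior_Ici] at hu
      obtain ⟨D, hD, -⟩ := hd u (le_of_lt hu)
      exact hD.differentiableAt.differentiableWithinAt
    · rw [interior_Ici] at hu
      obtain ⟨D, hD, hD0⟩ := hd u (le_of_lt hu)
      rwa [hD.deriv]
  have h8 := hanti (Set.self_mem_Ici) ht ht
  simp only [hF, zero_div, exp_zero, one_mul] at h8
  rw [← hent t ht, ← hent 0 le_rfl, semigroup_zero] at h8
  have h9 : ent μ (semigroup μ t f) - E * m ≤ exp (-t / K) * (ent μ f - E * m) := by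
    rw [neg_div, exp_neg, ← div_eq_inv_mul, le_div_iff₀ (exp_pos _), mul_comm]
    exact h8
  have h10 : 0 ≤ exp (-t / K) * (E * m) := by positivity
  linarith

/-- The relative entropy from any start, by smoothing the point mass. -/
theorem klStart_le (hsymm : ∀ i j, J i j = J j i) (hdiag : ∀ i, J i i = 0) {K E : ℝ}
    (hK : 0 < K) (hE0 : 0 ≤ E)
    (hE : ∀ F : (ι → Bool) → ℝ, (∀ x, 0 < F x) →
      ent (gibbs J h) F ≤ K * ∑ i, siteEnt (gibbs J h) i F + E * mean (gibbs J h) F)
    (x : ι → Bool) {t : ℝ} (ht : 0 ≤ t) :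
    klStart (gibbs J h) t x ≤ E + exp (-t / K) * log (1 / gibbs J h x) := by
  set μ := gibbs J h with hμ
  have hρ : IsWeight μ := IsWeight.gibbs J h
  have hμx := hρ.1 x
  set d : (ι → Bool) → ℝ := (1 / μ x) • (Pi.single x 1 : (ι → Bool) → ℝ) with hd
  set G : ℝ → (ι → Bool) → ℝ := fun η => (1 - η) • d + fun _ => η with hG
  have hdv : ∀ y, d y = if y = x then 1 / μ x else 0 := fun y => by
    simp [hd, Pi.single_apply]
  have hlin : ∀ η y, semigroup μ t (G η) y = (1 - η) * semigroup μ t d y + η := fun η y => by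
    simp only [hG]
    rw [map_add, map_smul, semigroup_const hρ]
    simp
  have hkl : klStart μ t x = ∑ y, μ y * (semigroup μ t d y * log (semigroup μ t d y)) := by
    refine sum_congr rfl fun y _ => ?_
    have hs := semigroup_symm (h := h) hsymm hdiag t (Pi.single x 1) (Pi.single y 1)
    have e1 : μ y * semigroup μ t (Pi.single x 1) y = μ x * transProb μ t x y := by
      simpa [mean, Pi.single_apply, transProb] using hs
    have e2 : semigroup μ t d y = transProb μ t x y / μ y := by
      rw [hd, map_smul]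
      simp only [Pi.smul_apply, smul_eq_mul]
      have := (hρ.1 y).ne'
      field_simp
      linarith
    rw [e2, ← mul_assoc, mul_div_cancel₀ _ (hρ.1 y).ne']
  have hlim : Tendsto (fun η : ℝ => ∑ y, μ y * (semigroup μ t (G η) y * log (semigroup μ t (G η) y)))
      (𝓝[>] 0) (𝓝 (klStart μ t x)) := by
    rw [hkl]
    refine tendsto_nhdsWithin_of_tendsto_nhds (tendsto_finsetSum _ fun y _ => ?_)
    refine Tendsto.const_mul _ ?_
    have hc : Continuous fun η : ℝ => semigroup μ t (G η) y := by
      simp only [hlin]; fun_prop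
    have := (Real.continuous_mul_log.comp hc).tendsto 0
    simpa [Function.comp_def, hlin] using this
  refine le_of_tendsto hlim ?_
  have hmem : Set.Ioc (0 : ℝ) 1 ∈ 𝓝[>] (0 : ℝ) := Ioc_mem_nhdsGT one_pos
  filter_upwards [hmem] with η hη
  have hx1 : μ x ≤ 1 := hρ.2 ▸ single_le_sum (fun y _ => (hρ.1 y).le) (mem_univ x)
  have hone : 1 ≤ 1 / μ x := (one_le_div hμx).2 hx1
  have hGv : ∀ y, G η y = (1 - η) * (if y = x then 1 / μ x else 0) + η := fun y => by
    simp only [hG, Pi.add_apply, Pi.smul_apply, smul_eq_mul, hdv]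
  have hGp : ∀ y, 0 < G η y := fun y => by
    rw [hGv]
    have : 0 ≤ 1 - η := by linarith [hη.2]
    split_ifs
    · have : 0 ≤ (1 - η) * (1 / μ x) := by positivity
      linarith [hη.1]
    · linarith [hη.1]
  have hGm : mean μ (G η) = 1 := by
    simp only [mean, hGv, mul_add, sum_add_distrib, ← sum_mul, hρ.2, one_mul]
    simp only [mul_ite, mul_zero, sum_ite_eq', mem_univ, if_true]
    field_simp
    ring
  have hGb : ∀ y, G η y ≤ 1 / μ x := fun y => by
    rw [hGv]
    have h0 : 0 ≤ 1 - η := by linarith [hη.2]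
    have h1 : η ≤ η * (1 / μ x) := le_mul_of_one_le_right hη.1.le hone
    split_ifs
    · linarith
    · linarith [mul_nonneg h0 (zero_le_one.trans hone)]
  have hent0 : ent μ (G η) ≤ log (1 / μ x) := by
    rw [ent_eq hρ hGp, hGm, log_one, mul_zero, sub_zero]
    calc ∑ y, μ y * (G η y * log (G η y)) ≤ ∑ y, μ y * (G η y * log (1 / μ x)) :=
          sum_le_sum fun y _ => mul_le_mul_of_nonneg_left
            (mul_le_mul_of_nonneg_left (log_le_log (hGp y) (hGb y)) (hGp y).le) (hρ.1 y).le
      _ = mean μ (G η) * log (1 / μ x) := by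
          simp only [mean, sum_mul]; exact sum_congr rfl fun y _ => by ring
      _ = _ := by rw [hGm, one_mul]
  have hkey := ent_semigroup_le_add hsymm hdiag hK hE0 hE hGp ht
  rw [hGm, mul_one] at hkey
  have hsg : mean μ (semigroup μ t (G η)) = 1 := (mean_semigroup hsymm hdiag t _).trans hGm
  rw [ent_eq hρ (semigroup_pos hρ ht hGp), hsg, log_one, mul_zero, sub_zero] at hkey
  exact hkey.trans (add_le_add le_rfl (mul_le_mul_of_nonneg_left hent0 (exp_pos _).le))

/-- Near-equilibrium in relative entropy after time of order one, from pass one. -/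
theorem kl_decay_of_trap {β : ℝ} (hβ : 0 ≤ β) (hT : TrapStatement β) :
    ∀ δ > 0, ∃ T : ℝ, Tendsto (fun n : ℕ =>
      Measure.pi (fun _ : Fin n × Fin n => gaussianReal 0 1)
        {g | ∀ t : ℝ, T ≤ t → ∀ x, klStart (gibbs (skCoupling β g) 0) t x ≤ δ * n})
      atTop (𝓝 1) := by
  intro δ hδ
  obtain ⟨C, hC⟩ := hT (δ / 2) (half_pos hδ)
  set K := max C 1
  have hK : 0 < K := lt_max_of_lt_right one_pos
  set B := 1 + 6 * β
  have hB : 0 < B := by simp only [B]; linarith
  refine ⟨max 0 (K * log (2 * B / δ)), ?_⟩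
  refine tendsto_of_tendsto_of_tendsto_of_le_of_le
    (tendsto_inter (A := fun n => trapEvent β C (δ / 2) n) (B := fun n => normEvent β (6 * β) n)
      (fun n => measurableSet_trapEvent β C _) (fun n => measurableSet_normEvent β _) hC
      (tendsto_normEvent hβ))
    tendsto_const_nhds (fun n => measure_mono fun g hg t ht x => ?_) fun n => prob_le_one
  set μ := gibbs (skCoupling β g) (0 : Fin n → ℝ)
  have hρ : IsWeight μ := IsWeight.gibbs _ _
  have hn : (0 : ℝ) ≤ n := Nat.cast_nonneg n
  have hE : ∀ F : (Fin n → Bool) → ℝ, (∀ y, 0 < F y) →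
      ent μ F ≤ K * ∑ i, siteEnt μ i F + δ / 2 * n * mean μ F := fun F hF => by
    refine (hg.1 F hF).trans (add_le_add ?_ le_rfl)
    have h1 := dirichlet_sqrt_le hρ hF
    have h0 := Local.dirichlet_nonneg' (f := fun x => √(F x)) hρ
    exact (mul_le_mul_of_nonneg_right (le_max_left C 1) h0).trans
      (mul_le_mul_of_nonneg_left h1 hK.le)
  have h := klStart_le (skCoupling_symm β g) (skCoupling_self β g) hK (by positivity) hE x
    ((le_max_left _ _).trans ht)
  have hlog := log_inv_gibbs_le hg.2 x
  have hexp : exp (-t / K) ≤ δ / (2 * B) := by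
    rw [show δ / (2 * B) = exp (-log (2 * B / δ)) by
      rw [exp_neg, exp_log (by positivity), inv_div]]
    refine exp_le_exp.2 ?_
    rw [div_le_iff₀ hK]
    linarith [(le_max_right (0 : ℝ) _).trans ht]
  have h2 : exp (-t / K) * log (1 / μ x) ≤ δ / (2 * B) * (B * n) :=
    (mul_le_mul_of_nonneg_left hlog (exp_pos _).le).trans
      (mul_le_mul_of_nonneg_right hexp (by positivity))
  have e : δ / (2 * B) * (B * n) = δ / 2 * n := by field_simp
  linarith

end Vale.Agent.P150.Beta1.Trap
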