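import Vale.Agent.P150.Beta1.Profile.Statement
import Vale.Agent.P150.Beta1.Local.Limit
import Vale.Agent.P150.Beta1.Stein.Basic

/-!
# One-site entropy along the profile

`siteH s` is the mean entropy of one uniform spin observed at signal `s`. Its rate is
`-(1 - psi s) / 2`, the rate of `psi` is `slopeSq`. Along `profS` the combination
`siteH s - β² (1 - psi s)² / 4` decreases at most at rate `(1 - psi s) / 2` per unit of time.
-/

namespace Vale.Agent.P150.Beta1.Trap

open MeasureTheory ProbabilityTheory Finset Function Real Filter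
open Profile (slopeSq profS pE_eq)
open scoped Topology

/-- Mean entropy of one spin at signal `s`. -/
noncomputable def siteH (s : ℝ) : ℝ :=
  Local.hShannon (0 : Fin 1 → Fin 1 → ℝ) (fun _ => 1) s

lemma sum_site (f : (Fin 1 → Bool) → ℝ) :
    ∑ x, f x = f (fun _ => true) + f (fun _ => false) := by
  rw [← Equiv.sum_comp (Equiv.funUnique (Fin 1) Bool).symm f, Fintype.sum_bool]
  rfl

lemma p0_site (x : Fin 1 → Bool) : Local.p0 (0 : Fin 1 → Fin 1 → ℝ) x = 1 / 2 := by
  simp [Local.p0, gibbs, energy]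

lemma mean_p0_one : mean (Local.p0 (0 : Fin 1 → Fin 1 → ℝ)) (fun _ => (1 : ℝ)) = 1 := by
  simp only [mean, mul_one]
  exact Local.tot_p0 _

lemma siteH_nonneg {s : ℝ} (hs : 0 ≤ s) : 0 ≤ siteH s :=
  Local.hShannon_nonneg _ hs fun _ => one_pos

lemma siteH_zero : siteH 0 = log 2 := by
  rw [siteH, Local.hShannon_zero, mean_p0_one, sum_site]
  simp only [p0_site, mul_one]
  rw [one_div, log_inv]
  simp
  ring

lemma log_le_two_sqrt {a r : ℝ} (ha : 0 < a) (hr : 0 < r) :
    r * log ((r + a) / r) ≤ 2 * √(r * a) := by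
  set t := √(a / r)
  have ht : t ^ 2 = a / r := sq_sqrt (by positivity)
  have h1 : 1 + (2 * t) + (2 * t) ^ 2 / 2 ≤ exp (2 * t) := quadratic_le_exp_of_nonneg (by positivity)
  have h2 : (r + a) / r ≤ exp (2 * t) := by
    rw [add_div, div_self hr.ne', ← ht]
    have : 0 ≤ t := sqrt_nonneg _
    nlinarith
  have h3 : log ((r + a) / r) ≤ 2 * t := by
    rw [← log_exp (2 * t)]
    exact log_le_log (by positivity) h2
  refine (mul_le_mul_of_nonneg_left h3 hr.le).trans (le_of_eq ?_)
  rw [show r * a = r ^ 2 * (a / r) by field_simp, sqrt_mul (sq_nonneg r), sqrt_sq hr.le]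
  ring

/-- The one-site entropy dies exponentially in the signal. -/
lemma siteH_le {s : ℝ} (_hs : 0 ≤ s) : siteH s ≤ 2 * exp (-(s / 2)) := by
  have hle : ∀ g : Fin 1 → ℝ,
      Local.logPair (fun x => Local.p0 (0 : Fin 1 → Fin 1 → ℝ) x * 1)
          (fun x => Local.p0 (0 : Fin 1 → Fin 1 → ℝ) x * 1) spins s g
        - ∑ x, Local.tilt (fun x => Local.p0 (0 : Fin 1 → Fin 1 → ℝ) x * 1) spins s g x
            * log (Local.tilt (fun x => Local.p0 (0 : Fin 1 → Fin 1 → ℝ) x * 1) spins s g x)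
      ≤ 2 * exp (-(s / 2)) := by
    intro g
    set r := Local.tilt (fun x => Local.p0 (0 : Fin 1 → Fin 1 → ℝ) x * 1) spins s g with hr
    have hpos : ∀ x, 0 < r x := fun x => by
      simp only [hr, Local.tilt, p0_site]
      positivity
    have hprod : r (fun _ => true) * r (fun _ => false) = exp (-(s / 2)) ^ 2 / 4 := by
      simp only [hr, Local.tilt, p0_site, Local.dotk, spins, spin, univ_unique, sum_singleton,
        Bool.false_eq_true, if_true, if_false]
      rw [← exp_nat_mul, mul_mul_mul_comm, ← exp_add]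
      push_cast
      ring_nf
    simp only [Local.logPair, Local.tot, ← hr, sum_site]
    have h1 := log_le_two_sqrt (hpos fun _ => false) (hpos fun _ => true)
    have h2 := log_le_two_sqrt (hpos fun _ => true) (hpos fun _ => false)
    rw [mul_comm (r fun _ => false) (r fun _ => true), add_comm (r fun _ => false)] at h2
    rw [log_div (add_pos (hpos _) (hpos _)).ne' (hpos _).ne'] at h1 h2
    rw [hprod] at h1 h2
    have e : √(exp (-(s / 2)) ^ 2 / 4) = exp (-(s / 2)) / 2 := by
      rw [show exp (-(s / 2)) ^ 2 / 4 = (exp (-(s / 2)) / 2) ^ 2 by ring,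
        sqrt_sq (by positivity)]
    rw [e] at h1 h2
    linarith
  rw [siteH, Local.hShannon]
  refine (integral_mono_of_nonneg (ae_of_all _ fun g => ?_) (integrable_const _)
    (ae_of_all _ hle)).trans (le_of_eq (by simp))
  set r := Local.tilt (fun x => Local.p0 (0 : Fin 1 → Fin 1 → ℝ) x * 1) spins s g
  have hpos : ∀ x, 0 < r x := fun x => mul_pos (mul_pos (Local.p0_pos _ x) one_pos) (exp_pos _)
  simp only [Pi.zero_apply, sub_nonneg, Local.logPair, Local.tot, sum_mul]
  exact sum_le_sum fun x _ => mul_le_mul_of_nonneg_left (log_le_log (hpos x)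
    (single_le_sum (fun y _ => (hpos y).le) (mem_univ x))) (hpos x).le

lemma integral_fin_one {f : ℝ → ℝ} (hf : Continuous f) :
    ∫ g, f (g 0) ∂gauss (Fin 1) = ∫ x, f x ∂gaussianReal 0 1 := by
  have h := measurePreserving_eval (fun _ : Fin 1 => gaussianReal 0 1) 0
  conv_rhs => rw [← h.map_eq]
  rw [integral_map h.measurable.aemeasurable hf.aestronglyMeasurable]
  rfl

lemma magSq_site {s : ℝ} (hs : 0 ≤ s) :
    Local.magSq (0 : Fin 1 → Fin 1 → ℝ) (fun _ => 1) s = psi s := by
  set Φ : (Fin 1 → Bool) → (Fin 1 → ℝ) → ℝ := fun _ y => tanh (y 0) ^ 2 with hΦ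
  have hc : ∀ x, Continuous (Φ x) := fun x => by
    simp only [hΦ]
    exact (continuous_tanh_real.comp (continuous_apply 0)).pow 2
  have hpE := pE_eq (J := (0 : Fin 1 → Fin 1 → ℝ)) (fun _ => (1 : ℝ)) hs hc (B := 1)
    fun x y => by rw [abs_of_nonneg (sq_nonneg _)]; exact tanh_sq_le_one _
  have e1 : Local.magSq (0 : Fin 1 → Fin 1 → ℝ) (fun _ => 1) s
      = ∫ g, Local.wgt (0 : Fin 1 → Fin 1 → ℝ) s g
          * mean (gibbs 0 (Local.fld s g)) (fun x => 1 * Φ x (Local.fld s g)) ∂gauss (Fin 1) := by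
    refine integral_congr_ae (ae_of_all _ fun g => ?_)
    set z := Local.fld s g 0
    have hp : ∀ x : Fin 1 → Bool, gibbs 0 (Local.fld s g) x
        = exp (z * spin (x 0)) / (exp z + exp (-z)) := fun x => by
      simp [gibbs, energy, sum_site, spin, z]
    have hD : exp z + exp (-z) ≠ 0 := by positivity
    simp only [tmean, mean, hΦ, sum_site, hp, univ_unique, sum_singleton, spins, spin,
      Fin.default_eq_zero, Bool.false_eq_true, if_true, if_false, mul_one, mul_neg, one_mul]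
    rw [tanh_eq]
    field_simp
    ring
  rw [e1, ← hpE, Profile.pE]
  simp only [p0_site, sum_site, mul_one, hΦ, Profile.pfield, spins, spin, Bool.false_eq_true,
    if_true, if_false, mul_neg]
  have hcont : ∀ c : ℝ, Continuous fun x => tanh (c + √s * x) ^ 2 := fun c =>
    (continuous_tanh_real.comp (by fun_prop)).pow 2
  rw [integral_fin_one (hcont s)]
  have h2 := gauss_neg_invariant (fun g : Fin 1 → ℝ => tanh (s + √s * g 0) ^ 2)
  have e2 : (fun g : Fin 1 → ℝ => tanh (s + √s * (-g) 0) ^ 2)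
      = fun g => tanh (-s + √s * g 0) ^ 2 := by
    funext g
    rw [Pi.neg_apply, show s + √s * -g 0 = -(-s + √s * g 0) by ring, tanh_neg, neg_sq]
  rw [e2, integral_fin_one (hcont s)] at h2
  rw [h2, psi]
  simp only [add_comm (√s * _) s]
  ring

/-- The rate of `siteH`. -/
lemma siteH_step : ∃ C ≥ 0, ∀ s h, 0 ≤ s → 0 ≤ h → h ≤ 1 →
    |siteH (s + h) - (siteH s - h * ((1 - psi s) / 2))| ≤ C * (h * √h) := by
  refine ⟨|2 * Local.stepC (spins : (Fin 1 → Bool) → Fin 1 → ℝ)|, abs_nonneg _,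
    fun s h hs hh h1 => ?_⟩
  have h2 := Local.hShannon_step (0 : Fin 1 → Fin 1 → ℝ) (F := fun _ => 1)
    (fun _ => one_pos) hs hh h1
  rw [mean_p0_one, magSq_site hs] at h2
  simp only [Fintype.card_fin, Nat.cast_one, mul_one] at h2
  exact h2.trans (mul_le_mul_of_nonneg_right (le_abs_self _) (by positivity))

lemma slopeSq_nonneg (s : ℝ) : 0 ≤ slopeSq s := integral_nonneg fun _ => sq_nonneg _

lemma slopeSq_le_one (s : ℝ) : slopeSq s ≤ 1 := by
  refine (integral_mono_of_nonneg (ae_of_all _ fun x => sq_nonneg _) (integrable_const 1)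
    (ae_of_all _ fun x => ?_)).trans (le_of_eq (by simp))
  have h1 := tanh_sq_le_one (√s * x + s)
  nlinarith [sq_nonneg (tanh (√s * x + s))]

/-- The rate of `psi`, from below. -/
lemma psi_step : ∃ C ≥ 0, ∀ s h, 0 ≤ s → 0 ≤ h → h ≤ 1 →
    slopeSq s * h - C * (h * √h) ≤ psi (s + h) - psi s := by
  have habs : Integrable (fun x : ℝ => |x| ^ 3) (gaussianReal 0 1) := by
    simpa [norm_eq_abs] using (memLp_id_gaussianReal (μ := 0) (v := 1) 3).integrable_norm_pow
      (by norm_num)
  set M := ∫ x : ℝ, |x| ^ 3 ∂gaussianReal 0 1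
  have hM : 0 ≤ M := integral_nonneg fun x => by positivity
  refine ⟨16 * (1 + M), by positivity, fun s h hs hh h1 => ?_⟩
  rw [psi_duo hs hh]
  have hm1 := measurePreserving_eval (fun _ : Fin 2 => gaussianReal 0 1) 1
  have iM : Integrable (fun g : Fin 2 → ℝ => |g 1| ^ 3) (gauss (Fin 2)) :=
    hm1.integrable_comp_of_integrable habs
  set v := fun g : Fin 2 → ℝ => 1 - tanh (√s * g 0 + s) ^ 2
  set η := fun g : Fin 2 → ℝ => h + √h * g 1
  have hvc : Continuous v :=
    continuous_const.sub ((continuous_tanh_real.comp (by fun_prop)).pow 2)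
  have hv : ∀ g, |v g| ≤ 1 := fun g => by
    have := tanh_sq_le_one (√s * g 0 + s)
    exact abs_le.2 ⟨by simp only [v]; linarith,
      by simp only [v]; linarith [sq_nonneg (tanh (√s * g 0 + s))]⟩
  have hpt : ∀ g : Fin 2 → ℝ, v g ^ 2 * η g ^ 2 - 16 * (h * √h) * (1 + |g 1| ^ 3)
      ≤ (tanh (√s * g 0 + √h * g 1 + (s + h)) - tanh (√s * g 0 + s)) ^ 2 := by
    intro g
    set z := √s * g 0 + s
    rw [show √s * g 0 + √h * g 1 + (s + h) = z + η g by simp only [z, η]; ring]
    set D := tanh (z + η g) - tanh z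
    have hlin : |D - v g * η g| ≤ 2 * |η g| * |η g| := by
      have hd : ∀ w ∈ Set.uIcc z (z + η g), HasDerivWithinAt
          (fun w => tanh w - (1 - tanh z ^ 2) * w)
          (1 - tanh w ^ 2 - (1 - tanh z ^ 2)) (Set.uIcc z (z + η g)) w := fun w _ =>
        (((hasDerivAt_tanh w).sub ((hasDerivAt_id w).const_mul (1 - tanh z ^ 2))).congr_deriv
          (by simp)).hasDerivWithinAt
      have hb : ∀ w ∈ Set.uIcc z (z + η g),
          ‖1 - tanh w ^ 2 - (1 - tanh z ^ 2)‖ ≤ 2 * |η g| := fun w hw => by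
        rw [norm_eq_abs, show 1 - tanh w ^ 2 - (1 - tanh z ^ 2)
          = (tanh z - tanh w) * (tanh z + tanh w) by ring, abs_mul, mul_comm 2]
        refine mul_le_mul ?_ ((abs_add_le _ _).trans
          (by linarith [abs_tanh_le_one z, abs_tanh_le_one w])) (abs_nonneg _) (abs_nonneg _)
        refine (abs_tanh_sub_le z w).trans ?_
        rw [abs_sub_comm]
        simpa using Set.abs_sub_left_of_mem_uIcc hw
      have hI := Convex.norm_image_sub_le_of_norm_hasDerivWithin_le hd hb (convex_uIcc _ _)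
        Set.left_mem_uIcc Set.right_mem_uIcc
      simp only [norm_eq_abs, add_sub_cancel_left] at hI
      have e : tanh (z + η g) - (1 - tanh z ^ 2) * (z + η g)
          - (tanh z - (1 - tanh z ^ 2) * z) = D - v g * η g := by
        simp only [D, v, z]; ring
      rw [e] at hI
      exact hI
    have hD : |D| ≤ |η g| := by simpa [D] using abs_tanh_sub_le (z + η g) z
    have h3 : |D ^ 2 - (v g * η g) ^ 2| ≤ 4 * |η g| ^ 3 := by
      rw [show D ^ 2 - (v g * η g) ^ 2 = (D - v g * η g) * (D + v g * η g) by ring, abs_mul]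
      have h4 : |D + v g * η g| ≤ 2 * |η g| := by
        refine (abs_add_le _ _).trans ?_
        rw [abs_mul]
        nlinarith [hv g, abs_nonneg (η g)]
      exact (mul_le_mul hlin h4 (abs_nonneg _) (by positivity)).trans_eq (by ring)
    have h5 : |η g| ^ 3 ≤ 4 * (h * √h) * (1 + |g 1| ^ 3) := by
      have hs0 := sqrt_nonneg h
      have hsh : h ≤ √h := by
        have : √h ≤ 1 := sqrt_le_one.2 h1
        calc h = √h * √h := (mul_self_sqrt hh).symm
          _ ≤ √h * 1 := mul_le_mul_of_nonneg_left this hs0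
          _ = √h := mul_one _
      have e1 : |η g| ≤ √h * (1 + |g 1|) := by
        refine (abs_add_le _ _).trans ?_
        rw [abs_of_nonneg hh, abs_mul, abs_of_nonneg hs0]
        linarith
      calc |η g| ^ 3 ≤ (√h * (1 + |g 1|)) ^ 3 := by gcongr
        _ = h * √h * (1 + |g 1|) ^ 3 := by
            linear_combination (√h * (1 + |g 1|) ^ 3) * sq_sqrt hh
        _ ≤ h * √h * (4 * (1 + |g 1| ^ 3)) := by
            gcongr
            nlinarith [mul_nonneg (add_nonneg zero_le_one (abs_nonneg (g 1)))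
              (sq_nonneg (1 - |g 1|))]
        _ = _ := by ring
    have h6 := (abs_le.1 h3).1
    rw [mul_pow] at h6
    linarith
  have hmain : ∫ g, v g ^ 2 * η g ^ 2 ∂gauss (Fin 2) = slopeSq s * (h ^ 2 + h) := by
    set w : Fin 2 → ℝ → ℝ := ![fun x => (1 - tanh (√s * x + s) ^ 2) ^ 2,
      fun x => (h + √h * x) ^ 2]
    have e : ∀ g : Fin 2 → ℝ, v g ^ 2 * η g ^ 2 = ∏ i, w i (g i) := fun g => by
      simp [Fin.prod_univ_two, w, v, η]
    simp only [e, gauss]
    rw [integral_fintype_prod_eq_prod w, Fin.prod_univ_two]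
    have i1 : Integrable (fun x : ℝ => x) (gaussianReal 0 1) :=
      (memLp_id_gaussianReal 1).integrable le_rfl
    have i2 : Integrable (fun x : ℝ => x ^ 2) (gaussianReal 0 1) :=
      (memLp_id_gaussianReal 2).integrable_sq
    have hv2 : ∫ x : ℝ, x ^ 2 ∂gaussianReal 0 1 = 1 := by
      have h := variance_id_gaussianReal (μ := 0) (v := 1)
      rw [variance_eq_integral aemeasurable_id] at h
      simpa [integral_id_gaussianReal] using h
    have e2 : ∀ x : ℝ, (h + √h * x) ^ 2 = h ^ 2 + (2 * h * √h) * x + h * x ^ 2 := fun x => by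
      linear_combination x ^ 2 * sq_sqrt hh
    simp only [w, Matrix.cons_val_zero, Matrix.cons_val_one, Matrix.cons_val_fin_one, slopeSq, e2]
    rw [integral_add (f := fun x => h ^ 2 + (2 * h * √h) * x)
        ((integrable_const _).add (i1.const_mul _)) (i2.const_mul _),
      integral_add (integrable_const _) (i1.const_mul _), integral_const_mul, integral_const_mul,
      hv2, integral_id_gaussianReal]
    simp
  have iV : Integrable (fun g => v g ^ 2 * η g ^ 2) (gauss (Fin 2)) := by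
    have i2 : Integrable (fun g : Fin 2 → ℝ => (h + √h * g 1) ^ 2) (gauss (Fin 2)) :=
      hm1.integrable_comp_of_integrable (f := fun _ => _) (((memLp_const h).add
        ((memLp_id_gaussianReal 2).const_mul √h)).integrable_sq)
    exact i2.bdd_mul (c := 1) (hvc.pow 2).aestronglyMeasurable
      (ae_of_all _ fun g => by
        rw [norm_eq_abs, abs_pow]
        exact pow_le_one₀ (abs_nonneg _) (hv g))
  have iR : Integrable (fun g : Fin 2 → ℝ =>
      (tanh (√s * g 0 + √h * g 1 + (s + h)) - tanh (√s * g 0 + s)) ^ 2) (gauss (Fin 2)) :=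
    integrable_bdd (((continuous_tanh_real.comp (by fun_prop)).sub
      (continuous_tanh_real.comp (by fun_prop))).pow 2) (B := 4) fun g => by
        rw [abs_pow]
        refine (pow_le_pow_left₀ (abs_nonneg _) ((abs_sub _ _).trans
          (add_le_add (abs_tanh_le_one (√s * g 0 + √h * g 1 + (s + h)))
            (abs_tanh_le_one (√s * g 0 + s)))) 2).trans (le_of_eq ?_)
        norm_num
  have iC := ((integrable_const (1 : ℝ)).fun_add iM).const_mul (16 * (h * √h))
  have hI := integral_mono (iV.sub' iC) iR hpt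
  rw [integral_sub iV iC, hmain, integral_const_mul,
    integral_add (integrable_const _) iM] at hI
  have hg : ∫ g : Fin 2 → ℝ, |g 1| ^ 3 ∂gauss (Fin 2) = M := by
    simp only [M]
    conv_rhs => rw [← hm1.map_eq]
    rw [integral_map hm1.measurable.aemeasurable (by fun_prop)]
    rfl
  rw [hg] at hI
  simp only [integral_const, probReal_univ, one_smul] at hI
  nlinarith [mul_nonneg (slopeSq_nonneg s) (sq_nonneg h)]

variable {β : ℝ}

lemma profS_bounds (hβ : 0 ≤ β) (hβ1 : β < 1) {h : ℝ} (hh : 0 ≤ h) :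
    ∀ i : ℕ, (i : ℝ) * h ≤ profS β h i
  | 0 => by simp [profS]
  | i + 1 => by
    have hb : β ^ 2 < 1 := by nlinarith
    have hd : 0 < 1 - β ^ 2 * slopeSq (profS β h i) := by
      nlinarith [slopeSq_le_one (profS β h i), slopeSq_nonneg (profS β h i)]
    have hh' : h ≤ h / (1 - β ^ 2 * slopeSq (profS β h i)) := by
      rw [le_div_iff₀ hd]
      nlinarith [mul_nonneg hh (mul_nonneg (sq_nonneg β) (slopeSq_nonneg (profS β h i)))]
    have := profS_bounds hβ hβ1 hh i
    simp only [profS, Nat.cast_add, Nat.cast_one]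
    linarith

/-- One step along the profile. -/
lemma profile_step {C₁ C₂ : ℝ} (hC₁ : 0 ≤ C₁) (hC₂ : 0 ≤ C₂)
    (hH : ∀ s h, 0 ≤ s → 0 ≤ h → h ≤ 1 →
      |siteH (s + h) - (siteH s - h * ((1 - psi s) / 2))| ≤ C₁ * (h * √h))
    (hP : ∀ s h, 0 ≤ s → 0 ≤ h → h ≤ 1 → slopeSq s * h - C₂ * (h * √h) ≤ psi (s + h) - psi s)
    (hb : 0 < 1 - β ^ 2) {s h : ℝ} (hs : 0 ≤ s) (h0 : 0 ≤ h) (hh1 : h ≤ 1 - β ^ 2) :
    siteH s - β ^ 2 / 4 * (1 - psi s) ^ 2 - (h * ((1 - psi s) / 2)
        + (C₁ + C₂ + 1) * (1 / (1 - β ^ 2) * √(1 / (1 - β ^ 2))) * (h * √h))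
      ≤ siteH (s + h / (1 - β ^ 2 * slopeSq s))
        - β ^ 2 / 4 * (1 - psi (s + h / (1 - β ^ 2 * slopeSq s))) ^ 2 := by
  set A := 1 / (1 - β ^ 2) with hA
  have hA0 : 0 < A := by positivity
  set D := (C₁ + C₂ + 1) * (A * √A) with hD
  have hden : 1 - β ^ 2 ≤ 1 - β ^ 2 * slopeSq s :=
    sub_le_sub_left (mul_le_of_le_one_right (sq_nonneg β) (slopeSq_le_one s)) 1
  set d := h / (1 - β ^ 2 * slopeSq s) with hd
  have hd0 : 0 ≤ d := div_nonneg h0 (hb.le.trans hden)
  have hdA : d ≤ A * h := by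
    rw [hd, hA, one_div_mul_eq_div]
    gcongr
  have hd1 : d ≤ 1 := by
    rw [hd, div_le_one (hb.trans_le hden)]
    linarith
  have e1 := (abs_le.1 (hH s d hs hd0 hd1)).1
  have e2 := hP s d hs hd0 hd1
  have e3 : psi (s + d) - psi s ≤ d + d ^ 2 := psi_add_le hs hd0
  have e4 := psi_mono hs (le_add_of_nonneg_right hd0)
  have e5 : d * (1 - β ^ 2 * slopeSq s) = h := div_mul_cancel₀ _ (hb.trans_le hden).ne'
  have hp1 := psi_le_one s
  have hp0 := psi_nonneg s
  have hb1 : β ^ 2 ≤ 1 := by linarith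
  have hds : d * √d ≤ A * √A * (h * √h) := by
    calc d * √d ≤ A * h * √(A * h) := by gcongr
      _ = _ := by rw [sqrt_mul hA0.le]; ring
  have hd2 : d ^ 2 ≤ d * √d := by
    rw [sq]
    refine mul_le_mul_of_nonneg_left ?_ hd0
    calc d = √d * √d := (mul_self_sqrt hd0).symm
      _ ≤ √d * 1 := mul_le_mul_of_nonneg_left (sqrt_le_one.2 hd1) (sqrt_nonneg _)
      _ = √d := mul_one _
  set P := psi (s + d) - psi s with hP'
  have q1 : β ^ 2 / 2 * (1 - psi s) * (slopeSq s * d - C₂ * (d * √d))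
      ≤ β ^ 2 / 2 * (1 - psi s) * P :=
    mul_le_mul_of_nonneg_left e2 (by nlinarith [sq_nonneg β])
  have q2 : P ^ 2 ≤ 4 * d ^ 2 := by
    have : P ≤ 2 * d := by nlinarith
    calc P ^ 2 ≤ (2 * d) ^ 2 := by
          refine pow_le_pow_left₀ ?_ this 2
          simp only [hP']; linarith
      _ = 4 * d ^ 2 := by ring
  have q3 : β ^ 2 / 2 * (1 - psi s) * (C₂ * (d * √d)) ≤ C₂ * (d * √d) :=
    mul_le_of_le_one_left (by positivity) (by nlinarith [sq_nonneg β])
  have q4 : β ^ 2 / 4 * P ^ 2 ≤ d * √d := by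
    nlinarith [sq_nonneg P, sq_nonneg β]
  have q5 : (C₁ + C₂ + 1) * (d * √d) ≤ D * (h * √h) := by
    rw [hD, mul_assoc]
    exact mul_le_mul_of_nonneg_left hds (by positivity)
  have e6 : h * ((1 - psi s) / 2)
      = d * ((1 - psi s) / 2) - β ^ 2 / 2 * (1 - psi s) * (slopeSq s * d) := by
    linear_combination -((1 - psi s) / 2) * e5
  have e7 : β ^ 2 / 4 * (1 - psi (s + d)) ^ 2
      = β ^ 2 / 4 * (1 - psi s) ^ 2 - β ^ 2 / 2 * (1 - psi s) * P + β ^ 2 / 4 * P ^ 2 := by
    simp only [hP']; ring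
  linarith

/-- The profile recovers `log 2 - β² / 4`. -/
theorem profile_sum (hβ : 0 ≤ β) (hβ1 : β < 1) {δ : ℝ} (hδ : 0 < δ) :
    ∃ T₀ > 0, ∀ T ≥ T₀, ∃ N₁ : ℕ, ∀ N ≥ N₁, 0 < N →
      log 2 - β ^ 2 / 4 - δ
        ≤ ∑ i ∈ range N, T / N * ((1 - psi (profS β (T / N) i)) / 2) := by
  obtain ⟨C₁, hC₁, hH⟩ := siteH_step
  obtain ⟨C₂, hC₂, hP⟩ := psi_step
  have hT0 : ∀ᶠ T : ℝ in atTop, 2 * exp (-(T / 2)) ≤ δ / 2 := by
    have : Tendsto (fun T : ℝ => 2 * exp (-(T / 2))) atTop (𝓝 0) := by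
      simpa using ((Real.tendsto_exp_atBot.comp (tendsto_neg_atTop_atBot.comp
        (tendsto_id.atTop_div_const two_pos))).const_mul 2)
    exact this.eventually_le_const (half_pos hδ)
  obtain ⟨T₁, hT₁⟩ := eventually_atTop.1 hT0
  refine ⟨max T₁ 1, by positivity, fun T hT => ?_⟩
  have hTpos : 0 < T := lt_of_lt_of_le (by positivity) hT
  have hb : 0 < 1 - β ^ 2 := by nlinarith
  set A := 1 / (1 - β ^ 2) with hA
  have hA0 : 0 < A := by positivity
  set D := (C₁ + C₂ + 1) * (A * √A) with hD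
  have hD0 : 0 ≤ D := by positivity
  have h' : Tendsto (fun N : ℕ => T / (N : ℝ)) atTop (𝓝 0) :=
    tendsto_const_div_atTop_nhds_zero_nat T
  have h2 : Tendsto (fun N : ℕ => T * (D * √(T / N))) atTop (𝓝 0) := by
    simpa using ((h'.sqrt.const_mul D).const_mul T)
  obtain ⟨N₁, hN₁⟩ := eventually_atTop.1
    ((h'.eventually_le_const (show 0 < 1 - β ^ 2 from hb)).and
      (h2.eventually_le_const (half_pos hδ)))
  refine ⟨N₁, fun N hN hN0 => ?_⟩
  obtain ⟨hh1, hsmall⟩ := hN₁ N hN
  have hN' : (0 : ℝ) < N := Nat.cast_pos.2 hN0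
  set h := T / N with hhdef
  have h0 : 0 ≤ h := div_nonneg hTpos.le hN'.le
  have hNh : (N : ℝ) * h = T := mul_div_cancel₀ _ hN'.ne'
  set G := fun s => siteH s - β ^ 2 / 4 * (1 - psi s) ^ 2 with hG
  have hstep : ∀ i, G (profS β h i) - (h * ((1 - psi (profS β h i)) / 2) + D * (h * √h))
      ≤ G (profS β h (i + 1)) := fun i =>
    profile_step hC₁ hC₂ hH hP hb
      ((mul_nonneg (Nat.cast_nonneg i) h0).trans (profS_bounds hβ hβ1 h0 i)) h0 hh1
  have hsum := sum_le_sum fun i (_ : i ∈ range N) => hstep i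
  have htel := sum_range_sub (fun i => G (profS β h i)) N
  rw [sum_sub_distrib] at hsum htel
  rw [sum_add_distrib, sum_const, card_range, nsmul_eq_mul,
    show (N : ℝ) * (D * (h * √h)) = (N * h) * (D * √h) by ring, hNh] at hsum
  have hG0 : G (profS β h 0) = log 2 - β ^ 2 / 4 := by
    simp [hG, profS, siteH_zero, psi_zero]
  have hGN : G (profS β h N) ≤ δ / 2 := by
    have hsN : T ≤ profS β h N := hNh ▸ profS_bounds hβ hβ1 h0 N
    have h1 := siteH_le (hTpos.le.trans hsN)
    have h2 : 2 * exp (-(profS β h N / 2)) ≤ 2 * exp (-(T / 2)) := by gcongr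
    have h3 := hT₁ T ((le_max_left _ _).trans hT)
    have h4 : 0 ≤ β ^ 2 / 4 * (1 - psi (profS β h N)) ^ 2 := by positivity
    simp only [hG]
    linarith
  linarith

/-- A bound on the squared magnetisation bounds the initial entropy from below. -/
theorem hShannon_lower {n : ℕ} (J : Fin n → Fin n → ℝ) {F : (Fin n → Bool) → ℝ}
    (hF : ∀ x, 0 < F x) (hm : mean (Local.p0 J) F = 1) {T : ℝ} (hT : 0 ≤ T) {N : ℕ} (hN : 0 < N)
    (b : ℕ → ℝ) (hb : ∀ i < N, ∀ v, (i : ℝ) * (T / N) ≤ v → v ≤ ((i : ℝ) + 1) * (T / N) →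
      Local.magSq J F v ≤ b i) :
    ∑ i ∈ range N, T / N * ((n - b i) / 2) ≤ Local.hShannon J F 0 := by
  have hN' : (0 : ℝ) < N := Nat.cast_pos.2 hN
  set h := T / N
  have h0 : 0 ≤ h := div_nonneg hT hN'.le
  have hstep : ∀ i ∈ range N, h * ((n - b i) / 2)
      ≤ Local.hShannon J F ((i : ℝ) * h) - Local.hShannon J F (((i + 1 : ℕ) : ℝ) * h) := by
    intro i hi
    have hv0 : 0 ≤ (i : ℝ) * h := by positivity
    have key := Local.decrease_le (F := fun w => -Local.hShannon J F ((i : ℝ) * h + w))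
      (G := fun w => -((Fintype.card (Fin n) * mean (Local.p0 J) F
        - Local.magSq J F ((i : ℝ) * h + w)) / 2))
      (B := -((n - b i) / 2)) (C := 2 * mean (Local.p0 J) F
        * Local.stepC (spins : (Fin n → Bool) → Fin n → ℝ)) h0
      (fun v w hv hw hw1 _ => by
        have := Local.hShannon_step J hF (add_nonneg hv0 hv) hw hw1
        rw [← add_assoc]
        refine le_of_eq_of_le ?_ this
        rw [← abs_neg]
        congr 1
        ring)
      (fun v hv hvh => by
        have := hb i (mem_range.1 hi) ((i : ℝ) * h + v) (by linarith) (by linarith)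
        rw [hm, Fintype.card_fin, mul_one]
        linarith)
    simp only [add_zero] at key
    push_cast
    rw [add_mul, one_mul]
    linarith
  refine (sum_le_sum hstep).trans ?_
  rw [sum_range_sub' (fun i : ℕ => Local.hShannon J F ((i : ℝ) * h))]
  simp only [Nat.cast_zero, zero_mul]
  linarith [Local.hShannon_nonneg J (u := (N : ℝ) * h) (by positivity) hF]

end Vale.Agent.P150.Beta1.Trap
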